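import Vale.Agent.P254.Z546.Jet

/-!
P254, block (Z), contact computation at the minimum (helper546).
-/

namespace Vale.Agent.P254.Z546

open Matrix Polynomial Filter Topology Asymptotics Set
open Vale.Agent.P254.L Vale.Agent.P254.S526

variable {n : ℕ}

/-! ### the one-variable function -/

/-- derivative of `-√(1-x)` -/
noncomputable def e1 (x : ℝ) : ℝ := 1 / (2 * Real.sqrt (1 - x))
/-- second derivative of `-√(1-x)` -/
noncomputable def e2 (x : ℝ) : ℝ := 1 / (4 * ((1 - x) * Real.sqrt (1 - x)))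

theorem hasDerivAt_sqrt' {x : ℝ} (hx : x < 1) :
    HasDerivAt (fun x : ℝ => Real.sqrt (1 - x)) (- e1 x) x := by
  have h1 : HasDerivAt (fun x : ℝ => 1 - x) (-1) x := by
    simpa using (hasDerivAt_id x).const_sub 1
  have h2 := h1.sqrt (by linarith : (1 - x) ≠ 0)
  refine h2.congr_deriv ?_
  unfold e1
  ring

theorem hasDerivAt_e1 {x : ℝ} (hx : x < 1) : HasDerivAt e1 (e2 x) x := by
  have hs : 0 < Real.sqrt (1 - x) := Real.sqrt_pos.2 (by linarith)
  have h1 := ((hasDerivAt_sqrt' hx).const_mul 2).inv (by positivity)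
  have e : e1 = fun x => (2 * Real.sqrt (1 - x))⁻¹ := by
    funext x; unfold e1; rw [one_div]
  rw [e]
  refine h1.congr_deriv ?_
  unfold e1 e2
  have h2 : Real.sqrt (1 - x) ^ 2 = 1 - x := Real.sq_sqrt (by linarith)
  generalize Real.sqrt (1 - x) = s at hs h2 ⊢
  rw [← h2]
  field_simp
  norm_num

theorem e1_mono {x y : ℝ} (hy : y < 1) (h : x ≤ y) : e1 x ≤ e1 y := by
  unfold e1
  have h1 : 0 < Real.sqrt (1 - y) := Real.sqrt_pos.2 (by linarith)
  have h2 : Real.sqrt (1 - y) ≤ Real.sqrt (1 - x) := Real.sqrt_le_sqrt (by linarith)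
  exact one_div_le_one_div_of_le (by positivity) (by linarith)

theorem dd1_e_nonneg {x y : ℝ} (hx : x < 1) (hy : y < 1) : 0 ≤ dd1 e1 e2 x y := by
  unfold dd1
  split_ifs with h
  · unfold e2
    have : 0 < 1 - x := by linarith
    positivity
  · rcases lt_or_gt_of_ne h with h1 | h1
    · exact div_nonneg_of_nonpos (by linarith [e1_mono hy h1.le]) (by linarith)
    · exact div_nonneg (by linarith [e1_mono hx h1.le]) (by linarith)

/-- derivative of `ft` -/
noncomputable def g1 {F : Profile} (W : WProfile F) (ε x : ℝ) : ℝ :=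
  W.w1 x + ε * e1 x + 1 / 2 * x⁻¹
/-- second derivative of `ft` -/
noncomputable def g2 {F : Profile} (W : WProfile F) (ε x : ℝ) : ℝ :=
  W.w2 x + ε * e2 x + 1 / 2 * (-(x ^ 2)⁻¹)

theorem hasDerivAt_ft {F : Profile} (W : WProfile F) (ε : ℝ) {x : ℝ} (hx : x ∈ Ioo (0 : ℝ) 1) :
    HasDerivAt (ft W ε) (g1 W ε x) x := by
  have h := ((W.d1 x hx).sub ((hasDerivAt_sqrt' hx.2).const_mul ε)).add
    ((Real.hasDerivAt_log hx.1.ne').const_mul (1 / 2))
  refine h.congr_deriv ?_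
  unfold g1
  ring

theorem hasDerivAt_g1 {F : Profile} (W : WProfile F) (ε : ℝ) {x : ℝ} (hx : x ∈ Ioo (0 : ℝ) 1) :
    HasDerivAt (g1 W ε) (g2 W ε x) x := by
  have h := ((W.d2 x hx).add ((hasDerivAt_e1 hx.2).const_mul ε)).add
    ((hasDerivAt_inv hx.1.ne').const_mul (1 / 2))
  exact h

theorem dd1_g {F : Profile} (W : WProfile F) (ε : ℝ) {x y : ℝ} (hx : x ∈ Ioo (0 : ℝ) 1)
    (hy : y ∈ Ioo (0 : ℝ) 1) :
    x * y * dd1 (g1 W ε) (g2 W ε) x y
      = x * y * dd1 W.w1 W.w2 x y + ε * (x * y * dd1 e1 e2 x y) - 1 / 2 := by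
  have hx0 := hx.1.ne'
  have hy0 := hy.1.ne'
  unfold dd1
  split_ifs with h
  · subst h
    unfold g2
    field_simp
    ring
  · have h1 : x - y ≠ 0 := sub_ne_zero.2 h
    unfold g1
    field_simp
    ring

/-! ### the contact computation -/

section
variable {F : Profile} {D : TiltData n} (E : EntData D) (W : WProfile F) {ε : ℝ}

/-- `∑_{kl} L_ak L_al K_ijkl` -/
def KK (L : Mat n) (K : Fin n → Fin n → Fin n → Fin n → ℝ) (a : Fin n) : Mat n :=
  Matrix.of fun i j => ∑ k, L a k * ∑ l, L a l * K i j k l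

theorem ev_nhds {x : ℝ} (hx : x ∈ Ioo (0 : ℝ) 1) {f f1 : ℝ → ℝ}
    (h : ∀ x ∈ Ioo (0 : ℝ) 1, HasDerivAt f (f1 x) x) : ∀ᶠ y in 𝓝 x, HasDerivAt f (f1 y) y := by
  filter_upwards [isOpen_Ioo.mem_nhds hx] with y hy
  exact h y hy

theorem conj_TT (L : Mat n) (T : Ten n) (a i j : Fin n) :
    (L * (Matrix.of fun i j => ∑ k, L a k * T i j k) * Lᵀ) i j = frT L T i j a := by
  simp only [Matrix.mul_apply, Matrix.transpose_apply, Matrix.of_apply, frT]
  simp only [Finset.sum_mul, Finset.mul_sum]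
  rw [Finset.sum_comm]
  refine Finset.sum_congr rfl fun p _ => Finset.sum_congr rfl fun q _ =>
    Finset.sum_congr rfl fun k _ => ?_
  ring

/-- (i) the second order test in the direction of the row `a` of the frame -/
theorem contact_c {B : Mat n} (hB : B.PosDef) {c : Vec n} {L : Mat n} {β : Vec n}
    (h : Fr (D.A B c) B L β) (a : Fin n)
    (hc : ∀ᶠ t in 𝓝 (0 : ℝ), GG E W ε B c ≤ GG E W ε B (c + t • (fun k => L a k))) :
    0 ≤ 1 / 2 * (∑ i, ∑ j, E.Xi B c i j * L a i * L a j)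
      - (1 / 2 * ∑ i, g1 W ε (β i) * (β i * (L * KK L (D.K B c) a * Lᵀ) i i)
        + 1 / 2 * ∑ i, ∑ j, dd1 (g1 W ε) (g2 W ε) (β i) (β j) * (β i * frT L (D.T B c) i j a)
            * (β j * frT L (D.T B c) j i a)) := by
  have hβ : ∀ i, β i ∈ Ioo (0 : ℝ) 1 := h.beta_mem hB c
  have hsy : ∀ c, (D.A B c)ᵀ = D.A B c := fun c => by
    ext i j; rw [Matrix.transpose_apply]; exact D.A_symm B c j i
  set e : Vec n := fun k => L a k with he
  have hA : ∀ i j, J2 (𝓝 0) (fun t : ℝ => D.A B (c + t • e) i j) (D.A B c i j)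
      ((Matrix.of fun i j => ∑ k, L a k * D.T B c i j k) i j)
      (((1 / 2 : ℝ) • KK L (D.K B c) a) i j) := by
    intro i j
    have h1 := J2.of_hasDerivAt (f := fun t : ℝ => D.A B (c + t • e) i j)
      (f' := fun t => ∑ k, e k * D.T B (c + t • e) i j k)
      (f2 := ∑ k, e k * ∑ l, e l * D.K B (c + (0 : ℝ) • e) i j k l)
      (Eventually.of_forall fun t => D.dA B hB.posSemidef c e i j t)
      (by
        have h2 := HasDerivAt.fun_sum (u := Finset.univ) (fun k _ =>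
          (D.dT B hB.posSemidef c e i j k 0).const_mul (e k))
        exact h2)
    simp only [zero_smul, add_zero] at h1
    refine h1.congr_coef rfl rfl ?_
    simp only [Matrix.smul_apply, KK, Matrix.of_apply, smul_eq_mul, he]
    ring
  have hPhi := phi_jet2 h (hsy c) hA (Eventually.of_forall fun t =>
    ⟨hsy _, exists_Fr (D.posA B hB.posSemidef _) hB.isHermitian⟩) (f := ft W ε) (f1 := g1 W ε)
    (f2 := g2 W ε) (fun i => ev_nhds (hβ i) fun x hx => hasDerivAt_ft W ε hx)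
    (fun i => hasDerivAt_g1 W ε (hβ i))
  have hE : J2 (𝓝 0) (fun t : ℝ => E.Ent B (c + t • e)) (E.Ent B c) (∑ i, E.g B c i * e i)
      (1 / 2 * ∑ i, ∑ j, E.Xi B c i j * e i * e j) := by
    refine (E.dE B hB.posSemidef c e).congr_left fun t => ?_
    ring
  have hG := ((((hE.add (J2.const (1 / 2 * Real.log B.det))).sub (J2.const (n : ℝ))).sub
      hPhi).neg).congr (g := fun t : ℝ => - GG E W ε B (c + t • e)) (a' := - GG E W ε B c)
      (Eventually.of_forall fun t => by unfold GG; rfl) (by unfold GG; rw [Phi_eq h]) rfl rfl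
  have h3 := (hG.le_test (by filter_upwards [hc] with t ht; linarith)).2
  simp only [conj_TT, Matrix.mul_smul, Matrix.smul_mul, Matrix.smul_apply, smul_eq_mul] at h3
  have h4 : ∑ i, g1 W ε (β i) * (β i * (1 / 2 * (L * KK L (D.K B c) a * Lᵀ) i i))
      = 1 / 2 * ∑ i, g1 W ε (β i) * (β i * (L * KK L (D.K B c) a * Lᵀ) i i) := by
    rw [Finset.mul_sum]
    exact Finset.sum_congr rfl fun i _ => by ring
  rw [h4] at h3
  linarith

/-- (ii) the first order test along the flow with the control `Q = Lᵀ diag r L` -/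
theorem contact_f {B : Mat n} (hB : B.PosDef) {c : Vec n} {L : Mat n} {β : Vec n}
    (h : Fr (D.A B c) B L β) {r : Vec n} (hr : ∀ i, 0 ≤ r i)
    (hc : ∀ᶠ t in 𝓝[≥] (0 : ℝ), GG E W ε B c ≤
      GG E W ε (B + t • (Lᵀ * Matrix.diagonal r * L))
        (c + t • ((Lᵀ * Matrix.diagonal r * L) *ᵥ D.mu B c))) :
    0 ≤ -(1 / 2) * (∑ a, r a * (1 + ∑ i, ∑ j, E.Xi B c i j * L a i * L a j))
      + 1 / 2 * ∑ i, r i / β i
      - ∑ i, g1 W ε (β i) * (r i * (1 - β i)
        - 1 / 2 * (β i * ∑ a, r a * (L * KK L (D.K B c) a * Lᵀ) i i)) := by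
  have hβ : ∀ i, β i ∈ Ioo (0 : ℝ) 1 := h.beta_mem hB c
  have hsy : ∀ B c, (D.A B c)ᵀ = D.A B c := fun B c => by
    ext i j; rw [Matrix.transpose_apply]; exact D.A_symm B c j i
  have hdr : (Matrix.diagonal r : Mat n).PosSemidef := by
    rw [Matrix.posSemidef_diagonal_iff]; exact hr
  set Q : Mat n := Lᵀ * Matrix.diagonal r * L with hQ
  have hQp : Q.PosSemidef := (psd_conj_iff h.isUnit).2 hdr
  have hl : 𝓝[≥] (0 : ℝ) ≤ 𝓝 0 := nhdsWithin_le_nhds
  have hQe : ∀ k l, Q k l = ∑ a, r a * (L a k * L a l) := by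
    intro k l
    rw [hQ, Matrix.mul_apply]
    refine Finset.sum_congr rfl fun a _ => ?_
    rw [Matrix.mul_diagonal, Matrix.transpose_apply]
    ring
  -- the matrix of the derivative of `A`
  set X : Mat n := -(D.A B c * Q * D.A B c)
    - (1 / 2 : ℝ) • ∑ a, r a • KK L (D.K B c) a with hX
  have hA : ∀ i j, J1 (𝓝[≥] 0) (fun t : ℝ => D.A (B + t • Q) (c + t • (Q *ᵥ D.mu B c)) i j)
      (D.A B c i j) (X i j) := by
    intro i j
    have h1 := J1.of_hasDerivWithinAt (D.fA B hB.posSemidef c Q hQp i j)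
    simp only [zero_smul, add_zero] at h1
    refine h1.congr_coef rfl ?_
    rw [hX]
    simp only [Matrix.sub_apply, Matrix.neg_apply, Matrix.smul_apply, Matrix.sum_apply, KK,
      Matrix.of_apply, smul_eq_mul]
    congr 2
    simp only [hQe, Finset.sum_mul, Finset.mul_sum]
    have e1 : ∀ k, ∑ l, ∑ a, r a * (L a k * L a l) * D.K B c i j k l
        = ∑ a, ∑ l, r a * (L a k * L a l) * D.K B c i j k l := fun k => Finset.sum_comm
    simp only [e1]
    rw [Finset.sum_comm]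
    refine Finset.sum_congr rfl fun a _ => Finset.sum_congr rfl fun k _ =>
      Finset.sum_congr rfl fun l _ => ?_
    ring
  have hpd : ∀ t : ℝ, 0 ≤ t → (B + t • Q).PosDef := fun t ht =>
    hB.add_posSemidef (hQp.smul ht)
  have hPhi := phi_jet1 hl h (hsy B c) hA (r := r) (by
    filter_upwards [self_mem_nhdsWithin] with t ht
    exact ⟨hsy _ _, exists_Fr (D.posA _ (hpd t ht).posSemidef _) (hpd t ht).isHermitian⟩)
    (f := ft W ε) (f1 := g1 W ε)
    (f2 := g2 W ε) (fun i => ev_nhds (hβ i) fun x hx => hasDerivAt_ft W ε hx)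
    (fun i => hasDerivAt_g1 W ε (hβ i))
  have hdet := logdet_jet1 hl h (r := r) (fun i => (hβ i).1)
  have hE := J1.of_hasDerivWithinAt (E.fE B hB.posSemidef c Q hQp)
  simp only [zero_smul, add_zero] at hE
  have hG := ((((hE.add (hdet.const_mul (1 / 2))).sub (J1.const (n : ℝ))).sub
      hPhi).neg).congr
      (g := fun t : ℝ => - GG E W ε (B + t • Q) (c + t • (Q *ᵥ D.mu B c)))
      (a' := - GG E W ε B c)
      (Eventually.of_forall fun t => by unfold GG; rfl) (by unfold GG; rw [Phi_eq h]) rfl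
  have h3 := hG.le_test (by filter_upwards [hc] with t ht; linarith)
  have hLX : ∀ i, (L * X * Lᵀ) i i
      = - r i - 1 / 2 * ∑ a, r a * (L * KK L (D.K B c) a * Lᵀ) i i := by
    intro i
    have e1 : L * (D.A B c * Q * D.A B c) * Lᵀ = Matrix.diagonal r := by
      rw [hQ]
      calc L * (D.A B c * (Lᵀ * Matrix.diagonal r * L) * D.A B c) * Lᵀ
          = (L * D.A B c * Lᵀ) * Matrix.diagonal r * (L * D.A B c * Lᵀ) := by
            simp only [Matrix.mul_assoc]
        _ = _ := by rw [h.hA, Matrix.one_mul, Matrix.mul_one]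
    rw [hX, Matrix.mul_sub, Matrix.sub_mul, Matrix.mul_neg, Matrix.neg_mul, e1]
    simp only [Matrix.sub_apply, Matrix.neg_apply, Matrix.diagonal_apply_eq, Matrix.mul_smul,
      Matrix.smul_mul, Matrix.smul_apply, Matrix.mul_sum, Matrix.sum_mul, Matrix.sum_apply,
      smul_eq_mul]
  have htr : (Q * D.A B c).trace = ∑ a, r a := by
    have e1 : Q * D.A B c = Lᵀ * (Matrix.diagonal r * (L * D.A B c)) := by
      rw [hQ]; simp only [Matrix.mul_assoc]
    rw [e1, Matrix.trace_mul_comm, Matrix.mul_assoc, h.hA, Matrix.mul_one,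
      Matrix.trace_diagonal]
  have hXi : ∑ i, ∑ j, Q i j * E.Xi B c i j
      = ∑ a, r a * ∑ i, ∑ j, E.Xi B c i j * L a i * L a j := by
    simp only [hQe, Finset.sum_mul, Finset.mul_sum]
    have e1 : ∀ k, ∑ l, ∑ a, r a * (L a k * L a l) * E.Xi B c k l
        = ∑ a, ∑ l, r a * (L a k * L a l) * E.Xi B c k l := fun k => Finset.sum_comm
    simp only [e1]
    rw [Finset.sum_comm]
    refine Finset.sum_congr rfl fun a _ => Finset.sum_congr rfl fun k _ =>
      Finset.sum_congr rfl fun l _ => ?_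
    ring
  rw [htr, hXi, ← Finset.sum_add_distrib] at h3
  have h5 : ∑ a, (r a + r a * ∑ i, ∑ j, E.Xi B c i j * L a i * L a j)
      = ∑ a, r a * (1 + ∑ i, ∑ j, E.Xi B c i j * L a i * L a j) :=
    Finset.sum_congr rfl fun a _ => by ring
  have h6 : ∑ i, g1 W ε (β i) * (r i + β i * (L * X * Lᵀ) i i)
      = ∑ i, g1 W ε (β i) * (r i * (1 - β i)
        - 1 / 2 * (β i * ∑ a, r a * (L * KK L (D.K B c) a * Lᵀ) i i)) :=
    Finset.sum_congr rfl fun i _ => by rw [hLX]; ring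
  rw [h5, h6] at h3
  linarith

/-- the contact inequality: `(i)` and `(ii)` together -/
theorem contact_ineq {B : Mat n} (hB : B.PosDef) {c : Vec n} {L : Mat n} {β : Vec n}
    (h : Fr (D.A B c) B L β) {r : Vec n} (hr : ∀ i, 0 ≤ r i)
    (hc : ∀ e : Vec n, ∀ᶠ t in 𝓝 (0 : ℝ), GG E W ε B c ≤ GG E W ε B (c + t • e))
    (hf : ∀ᶠ t in 𝓝[≥] (0 : ℝ), GG E W ε B c ≤
      GG E W ε (B + t • (Lᵀ * Matrix.diagonal r * L))
        (c + t • ((Lᵀ * Matrix.diagonal r * L) *ᵥ D.mu B c))) :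
    0 ≤ ∑ a, r a * (∑ i, ∑ j, (1 / 2 * (1 / 2 - β i * β j * dd1 W.w1 W.w2 (β i) (β j)
        - ε * (β i * β j * dd1 e1 e2 (β i) (β j))))
          * frT L (D.T B c) i j a ^ 2
      - (W.w1 (β a) + ε * e1 (β a)) * (1 - β a)) := by
  have hβ : ∀ i, β i ∈ Ioo (0 : ℝ) 1 := h.beta_mem hB c
  have h1 : ∀ a, 0 ≤ r a * _ := fun a => mul_nonneg (hr a) (contact_c E W hB h a (hc _))
  have h2 := Finset.sum_nonneg (s := Finset.univ) fun a _ => h1 a
  have h3 := contact_f E W hB h hr hf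
  have hTs : ∀ i j a, frT L (D.T B c) j i a = frT L (D.T B c) i j a := by
    intro i j a
    unfold frT
    rw [Finset.sum_comm]
    refine Finset.sum_congr rfl fun p _ => Finset.sum_congr rfl fun q _ =>
      Finset.sum_congr rfl fun k _ => ?_
    rw [(D.T_symm B c).1 q p k]
    ring
  have h4 := add_nonneg h2 h3
  refine h4.trans_eq ?_
  -- abbreviations
  have hK : ∑ a, r a * ∑ i, g1 W ε (β i) * (β i * (L * KK L (D.K B c) a * Lᵀ) i i)
      = ∑ i, g1 W ε (β i) * (β i * ∑ a, r a * (L * KK L (D.K B c) a * Lᵀ) i i) := by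
    simp only [Finset.mul_sum]
    rw [Finset.sum_comm]
    exact Finset.sum_congr rfl fun i _ => Finset.sum_congr rfl fun a _ => by ring
  have e1 : ∑ a, r a * (1 / 2 * (∑ i, ∑ j, E.Xi B c i j * L a i * L a j)
      - (1 / 2 * ∑ i, g1 W ε (β i) * (β i * (L * KK L (D.K B c) a * Lᵀ) i i)
        + 1 / 2 * ∑ i, ∑ j, dd1 (g1 W ε) (g2 W ε) (β i) (β j) * (β i * frT L (D.T B c) i j a)
            * (β j * frT L (D.T B c) j i a)))
      = 1 / 2 * (∑ a, r a * ∑ i, ∑ j, E.Xi B c i j * L a i * L a j)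
        - 1 / 2 * (∑ a, r a * ∑ i, g1 W ε (β i) * (β i * (L * KK L (D.K B c) a * Lᵀ) i i))
        - 1 / 2 * ∑ a, r a * ∑ i, ∑ j, dd1 (g1 W ε) (g2 W ε) (β i) (β j)
            * (β i * frT L (D.T B c) i j a) * (β j * frT L (D.T B c) j i a) := by
    rw [Finset.mul_sum Finset.univ _ (1 / 2 : ℝ), Finset.mul_sum Finset.univ _ (1 / 2 : ℝ),
      Finset.mul_sum Finset.univ _ (1 / 2 : ℝ), ← Finset.sum_sub_distrib,
      ← Finset.sum_sub_distrib]
    exact Finset.sum_congr rfl fun a _ => by ring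
  have e2 : ∑ i, g1 W ε (β i) * (r i * (1 - β i)
        - 1 / 2 * (β i * ∑ a, r a * (L * KK L (D.K B c) a * Lᵀ) i i))
      = ∑ i, g1 W ε (β i) * (r i * (1 - β i))
        - 1 / 2 * ∑ i, g1 W ε (β i) * (β i * ∑ a, r a * (L * KK L (D.K B c) a * Lᵀ) i i) := by
    rw [Finset.mul_sum Finset.univ _ (1 / 2 : ℝ), ← Finset.sum_sub_distrib]
    exact Finset.sum_congr rfl fun i _ => by ring
  have e3 : ∑ a, r a * (1 + ∑ i, ∑ j, E.Xi B c i j * L a i * L a j)
      = ∑ a, r a + ∑ a, r a * ∑ i, ∑ j, E.Xi B c i j * L a i * L a j := by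
    rw [← Finset.sum_add_distrib]
    exact Finset.sum_congr rfl fun a _ => by ring
  rw [e1, e2, e3, hK]
  have e4 : ∑ a, r a * (∑ i, ∑ j, (1 / 2 * (1 / 2 - β i * β j * dd1 W.w1 W.w2 (β i) (β j)
        - ε * (β i * β j * dd1 Z546.e1 Z546.e2 (β i) (β j))))
          * frT L (D.T B c) i j a ^ 2
      - (W.w1 (β a) + ε * Z546.e1 (β a)) * (1 - β a))
      = - (1 / 2 * ∑ a, r a * ∑ i, ∑ j, dd1 (g1 W ε) (g2 W ε) (β i) (β j)
            * (β i * frT L (D.T B c) i j a) * (β j * frT L (D.T B c) j i a))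
        + (1 / 2 * ∑ i, r i / β i - 1 / 2 * ∑ a, r a
          - ∑ i, g1 W ε (β i) * (r i * (1 - β i))) := by
    rw [Finset.mul_sum Finset.univ _ (1 / 2 : ℝ), Finset.mul_sum Finset.univ _ (1 / 2 : ℝ),
      Finset.mul_sum Finset.univ _ (1 / 2 : ℝ), ← Finset.sum_sub_distrib,
      ← Finset.sum_sub_distrib, ← Finset.sum_neg_distrib, ← Finset.sum_add_distrib]
    refine Finset.sum_congr rfl fun a _ => ?_
    have e5 : ∑ i, ∑ j, (1 / 2 * (1 / 2 - β i * β j * dd1 W.w1 W.w2 (β i) (β j)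
        - ε * (β i * β j * dd1 Z546.e1 Z546.e2 (β i) (β j))))
          * frT L (D.T B c) i j a ^ 2
        = - (1 / 2 * ∑ i, ∑ j, dd1 (g1 W ε) (g2 W ε) (β i) (β j)
            * (β i * frT L (D.T B c) i j a) * (β j * frT L (D.T B c) j i a)) := by
      rw [Finset.mul_sum, ← Finset.sum_neg_distrib]
      refine Finset.sum_congr rfl fun i _ => ?_
      rw [Finset.mul_sum, ← Finset.sum_neg_distrib]
      refine Finset.sum_congr rfl fun j _ => ?_
      rw [hTs i j a]
      have e6 := dd1_g W ε (hβ i) (hβ j)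
      have e7 : dd1 (g1 W ε) (g2 W ε) (β i) (β j) * (β i * frT L (D.T B c) i j a)
            * (β j * frT L (D.T B c) i j a)
          = (β i * β j * dd1 (g1 W ε) (g2 W ε) (β i) (β j)) * frT L (D.T B c) i j a ^ 2 := by
        ring
      rw [e7, e6]
      ring
    rw [e5]
    have hb := (hβ a).1.ne'
    unfold g1
    field_simp
    ring
  rw [e4]
  ring

end

end Vale.Agent.P254.Z546
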