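import Vale.Agent.P254.L.ZBd
import Vale.Agent.P254.S526.Poly

/-!
P254, block (Z), contact computation: jets of spectral sums in a frame (helper546).
-/

namespace Vale.Agent.P254.Z546

open Matrix Polynomial Filter Topology Asymptotics Set
open Vale.Agent.P254.L Vale.Agent.P254.S526

variable {n : ℕ}

theorem aeval_comm_mul (U V : Mat n) (q : ℝ[X]) :
    aeval (U * V) q * U = U * aeval (V * U) q := by
  induction q using Polynomial.induction_on with
  | C a =>
    simp only [aeval_C, Algebra.algebraMap_eq_smul_one, Matrix.smul_mul, Matrix.one_mul,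
      Matrix.mul_smul, Matrix.mul_one]
  | add p q hp hq => rw [map_add, map_add, Matrix.add_mul, Matrix.mul_add, hp, hq]
  | monomial m a ih =>
    have e : (C a * Polynomial.X ^ (m + 1) : ℝ[X])
        = (C a * Polynomial.X ^ m) * Polynomial.X := by rw [pow_succ, mul_assoc]
    rw [e]
    generalize (C a * Polynomial.X ^ m : ℝ[X]) = p at ih ⊢
    rw [map_mul, map_mul, aeval_X, aeval_X]
    calc aeval (U * V) p * (U * V) * U
        = (aeval (U * V) p * U) * (V * U) := by
          simp only [Matrix.mul_assoc]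
      _ = _ := by rw [ih]; simp only [Matrix.mul_assoc]

theorem trace_aeval_comm {U : Mat n} (V : Mat n) (hU : IsUnit U) (q : ℝ[X]) :
    (aeval (U * V) q).trace = (aeval (V * U) q).trace := by
  obtain ⟨W, hW⟩ := hU.exists_right_inv
  have hW' : W * U = 1 := mul_eq_one_comm.1 hW
  calc (aeval (U * V) q).trace = (aeval (U * V) q * (U * W)).trace := by
        rw [hW, Matrix.mul_one]
    _ = ((aeval (U * V) q * U) * W).trace := by rw [Matrix.mul_assoc]
    _ = (U * aeval (V * U) q * W).trace := by rw [aeval_comm_mul]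
    _ = (W * (U * aeval (V * U) q)).trace := Matrix.trace_mul_comm _ _
    _ = _ := by rw [← Matrix.mul_assoc, hW', Matrix.one_mul]

theorem J2_conj {l : Filter ℝ} {A : ℝ → Mat n} {A0 X Y : Mat n} (L : Mat n)
    (hA : ∀ i j, J2 l (fun t => A t i j) (A0 i j) (X i j) (Y i j)) (i j : Fin n) :
    J2 l (fun t => (L * A t * Lᵀ) i j) ((L * A0 * Lᵀ) i j) ((L * X * Lᵀ) i j)
      ((L * Y * Lᵀ) i j) := by
  have h := J2.sum Finset.univ (fun k _ =>
    (J2.sum Finset.univ (fun p _ => (hA p k).const_mul (L i p))).mul_const (L j k))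
  refine h.congr (Eventually.of_forall fun t => ?_) ?_ ?_ ?_ <;>
  simp only [Matrix.mul_apply, Matrix.transpose_apply]

theorem J1_conj {l : Filter ℝ} {A : ℝ → Mat n} {A0 X : Mat n} (L : Mat n)
    (hA : ∀ i j, J1 l (fun t => A t i j) (A0 i j) (X i j)) (i j : Fin n) :
    J1 l (fun t => (L * A t * Lᵀ) i j) ((L * A0 * Lᵀ) i j) ((L * X * Lᵀ) i j) := by
  have h := J1.sum Finset.univ (fun k _ =>
    (J1.sum Finset.univ (fun p _ => (hA p k).const_mul (L i p))).mul_const (L j k))
  refine h.congr (Eventually.of_forall fun t => ?_) ?_ ?_ <;>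
  simp only [Matrix.mul_apply, Matrix.transpose_apply]

theorem isUnit_transpose {L : Mat n} (h : IsUnit L) : IsUnit Lᵀ :=
  (Matrix.isUnit_transpose L).2 h

/-- second order jet of `∑ f (β i)` along a curve of matrices `A t`, `B` fixed -/
theorem phi_jet2 {A : ℝ → Mat n} {A0 B L X Y : Mat n} {β : Vec n} (h0 : Fr A0 B L β)
    (hs : A0ᵀ = A0)
    (hA : ∀ i j, J2 (𝓝 0) (fun t => A t i j) (A0 i j) (X i j) (Y i j))
    (hfr : ∀ᶠ t in 𝓝 (0 : ℝ), (A t)ᵀ = A t ∧ ∃ L β, Fr (A t) B L β)
    {f f1 f2 : ℝ → ℝ} (h1 : ∀ i, ∀ᶠ x in 𝓝 (β i), HasDerivAt f (f1 x) x)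
    (h2 : ∀ i, HasDerivAt f1 (f2 (β i)) (β i)) :
    J2 (𝓝 0) (fun t => Phi f (A t) B) (∑ i, f (β i))
      (∑ i, f1 (β i) * (β i * (L * X * Lᵀ) i i))
      (∑ i, f1 (β i) * (β i * (L * Y * Lᵀ) i i)
        + 1 / 2 * ∑ i, ∑ j, dd1 f1 f2 (β i) (β j) * (β i * (L * X * Lᵀ) i j)
            * (β j * (L * X * Lᵀ) j i)) := by
  obtain ⟨q, hq⟩ := exists_hermite f f1 f2 (Finset.univ.image β)
  have hq' : ∀ i, q.eval (β i) = f (β i) ∧ q.derivative.eval (β i) = f1 (β i) ∧
      q.derivative.derivative.eval (β i) = f2 (β i) := fun i => hq _ (by simp)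
  have hC : Curve (𝓝 0) A (fun _ => B) A0 B :=
    { hl := le_rfl
      symm0 := hs
      hA := fun i j => ((hA i j).toJ1 le_rfl).sub_isBigO
      hB := fun i j => by simpa using isBigO_zero (fun t : ℝ => t) (𝓝 0)
      fr := hfr }
  have hP := hC.Phi_poly h0 (f := f) (q := q) fun i =>
    rho_o (h1 i) (h2 i) (hq' i).1 (hq' i).2.1 (hq' i).2.2
  have hU : IsUnit Lᵀ := isUnit_transpose h0.isUnit
  have e : ∀ t, (aeval (B * A t) q).trace
      = (aeval (Matrix.diagonal β * (L * A t * Lᵀ)) q).trace := by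
    intro t
    have e1 : B * A t = Lᵀ * (Matrix.diagonal β * (L * A t)) := by
      conv_lhs => rw [h0.hB]
      simp only [Matrix.mul_assoc]
    rw [e1, trace_aeval_comm _ hU]
    simp only [Matrix.mul_assoc]
  have hM : ∀ i j, J2 (𝓝 0) (fun t => (Matrix.diagonal β * (L * A t * Lᵀ)) i j)
      (Matrix.diagonal β i j) ((Matrix.of fun i j => β i * (L * X * Lᵀ) i j) i j)
      ((Matrix.of fun i j => β i * (L * Y * Lᵀ) i j) i j) := by
    intro i j
    refine ((J2_conj L hA i j).const_mul (β i)).congr (Eventually.of_forall fun t => ?_) ?_ ?_ ?_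
    · exact (Matrix.diagonal_mul _ _ _ _).symm
    · rw [h0.hA, Matrix.one_apply, Matrix.diagonal_apply]
      split_ifs <;> simp
    · rfl
    · rfl
  have hT := poly_trace_jet2 le_rfl q hM
  have hT' : J2 (𝓝 0) (fun t => (aeval (B * A t) q).trace) (∑ i, f (β i))
      (∑ i, f1 (β i) * (β i * (L * X * Lᵀ) i i))
      (∑ i, f1 (β i) * (β i * (L * Y * Lᵀ) i i)
        + 1 / 2 * ∑ i, ∑ j, dd1 f1 f2 (β i) (β j) * (β i * (L * X * Lᵀ) i j)
            * (β j * (L * X * Lᵀ) j i)) := by
    refine hT.congr (Eventually.of_forall fun t => (e t).symm) ?_ ?_ ?_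
    · exact Finset.sum_congr rfl fun i _ => (hq' i).1
    · exact Finset.sum_congr rfl fun i _ => by rw [(hq' i).2.1, Matrix.of_apply]
    · congr 1
      · exact Finset.sum_congr rfl fun i _ => by rw [(hq' i).2.1, Matrix.of_apply]
      · congr 1
        refine Finset.sum_congr rfl fun i _ => Finset.sum_congr rfl fun j _ => ?_
        rw [Matrix.of_apply, Matrix.of_apply,
          pd1_eq_dd1 (f := f1) (f1 := f2) (hq' i).2.1 (hq' j).2.1 (hq' i).2.2]
  refine (IsLittleO.add hP hT').congr_left fun t => ?_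
  simp only
  ring

/-- first order jet along `B + t Lᵀ diag r L` -/
theorem phi_jet1 {l : Filter ℝ} (hl : l ≤ 𝓝 0) {A : ℝ → Mat n} {A0 B L X : Mat n} {β r : Vec n}
    (h0 : Fr A0 B L β) (hs : A0ᵀ = A0)
    (hA : ∀ i j, J1 l (fun t => A t i j) (A0 i j) (X i j))
    (hfr : ∀ᶠ t in l, (A t)ᵀ = A t ∧
      ∃ L' β', Fr (A t) (B + t • (Lᵀ * Matrix.diagonal r * L)) L' β')
    {f f1 f2 : ℝ → ℝ} (h1 : ∀ i, ∀ᶠ x in 𝓝 (β i), HasDerivAt f (f1 x) x)
    (h2 : ∀ i, HasDerivAt f1 (f2 (β i)) (β i)) :
    J1 l (fun t => Phi f (A t) (B + t • (Lᵀ * Matrix.diagonal r * L))) (∑ i, f (β i))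
      (∑ i, f1 (β i) * (r i + β i * (L * X * Lᵀ) i i)) := by
  obtain ⟨q, hq⟩ := exists_hermite f f1 f2 (Finset.univ.image β)
  have hq' : ∀ i, q.eval (β i) = f (β i) ∧ q.derivative.eval (β i) = f1 (β i) ∧
      q.derivative.derivative.eval (β i) = f2 (β i) := fun i => hq _ (by simp)
  have hC : Curve l A (fun t => B + t • (Lᵀ * Matrix.diagonal r * L)) A0 B :=
    { hl := hl
      symm0 := hs
      hA := fun i j => (hA i j).sub_isBigO
      hB := fun i j => by
        have h3 : (fun t : ℝ => (Lᵀ * Matrix.diagonal r * L) i j * t) =O[l] fun t => t :=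
          (isBigO_refl _ _).const_mul_left _
        refine h3.congr_left fun t => ?_
        simp only [Matrix.add_apply, Matrix.smul_apply, smul_eq_mul]
        ring
      fr := hfr }
  have hP := hC.Phi_poly h0 (f := f) (q := q) fun i =>
    rho_o (h1 i) (h2 i) (hq' i).1 (hq' i).2.1 (hq' i).2.2
  have hP' : (fun t => Phi f (A t) (B + t • (Lᵀ * Matrix.diagonal r * L))
      - (aeval ((B + t • (Lᵀ * Matrix.diagonal r * L)) * A t) q).trace) =o[l] fun t => t :=
    hP.trans_isBigO (sq_isLittleO hl).isBigO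
  have hU : IsUnit Lᵀ := isUnit_transpose h0.isUnit
  have e : ∀ t : ℝ, (aeval ((B + t • (Lᵀ * Matrix.diagonal r * L)) * A t) q).trace
      = (aeval (Matrix.diagonal (fun i => β i + t * r i) * (L * A t * Lᵀ)) q).trace := by
    intro t
    have e2 : (Matrix.diagonal (fun i => β i + t * r i) : Mat n)
        = Matrix.diagonal β + t • Matrix.diagonal r := by
      ext i j
      simp only [Matrix.diagonal_apply, Matrix.add_apply, Matrix.smul_apply, smul_eq_mul]
      split_ifs <;> simp
    have e1 : (B + t • (Lᵀ * Matrix.diagonal r * L)) * A t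
        = Lᵀ * (Matrix.diagonal (fun i => β i + t * r i) * (L * A t)) := by
      conv_lhs => rw [h0.hB]
      rw [e2]
      simp only [Matrix.add_mul, Matrix.mul_add, Matrix.smul_mul, Matrix.mul_smul,
        Matrix.mul_assoc]
    rw [e1, trace_aeval_comm _ hU]
    simp only [Matrix.mul_assoc]
  have hM : ∀ i j, J1 l (fun t => (Matrix.diagonal (fun i => β i + t * r i)
        * (L * A t * Lᵀ)) i j)
      (Matrix.diagonal β i j)
      ((Matrix.of fun i j => Matrix.diagonal r i j + β i * (L * X * Lᵀ) i j) i j) := by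
    intro i j
    have h3 : J1 l (fun t => β i + t * r i) (β i) (r i) := by
      refine ((J1.const (β i)).add (J1.id.mul_const (r i))).congr_coef ?_ ?_ <;> ring
    refine (h3.mul hl (J1_conj L hA i j)).congr (Eventually.of_forall fun t => ?_) ?_ ?_
    · exact (Matrix.diagonal_mul (fun i => β i + t * r i) (L * A t * Lᵀ) i j).symm
    · rw [h0.hA, Matrix.one_apply, Matrix.diagonal_apply]
      split_ifs <;> simp
    · rw [h0.hA, Matrix.one_apply, Matrix.of_apply, Matrix.diagonal_apply]
      split_ifs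
      · simp; ring
      · simp
  have hT := poly_trace_jet1 hl q hM
  have hT' : J1 l (fun t : ℝ => (aeval ((B + t • (Lᵀ * Matrix.diagonal r * L)) * A t) q).trace)
      (∑ i, f (β i)) (∑ i, f1 (β i) * (r i + β i * (L * X * Lᵀ) i i)) := by
    refine hT.congr (Eventually.of_forall fun t => (e t).symm) ?_ ?_
    · exact Finset.sum_congr rfl fun i _ => (hq' i).1
    · refine Finset.sum_congr rfl fun i _ => ?_
      rw [(hq' i).2.1, Matrix.of_apply, Matrix.diagonal_apply_eq]
  refine (IsLittleO.add hP' hT').congr_left fun t => ?_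
  simp only
  ring

/-- `½ log det` along `B + t Lᵀ diag r L` -/
theorem logdet_jet1 {l : Filter ℝ} (hl : l ≤ 𝓝 0) {A0 B L : Mat n} {β r : Vec n}
    (h0 : Fr A0 B L β) (hβ : ∀ i, 0 < β i) :
    J1 l (fun t => Real.log (B + t • (Lᵀ * Matrix.diagonal r * L)).det)
      (Real.log B.det) (∑ i, r i / β i) := by
  have hL : L.det ^ 2 ≠ 0 := by
    have := h0.det_A
    intro h
    rw [h, zero_mul] at this
    exact zero_ne_one this
  have e : ∀ t : ℝ, (B + t • (Lᵀ * Matrix.diagonal r * L)).det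
      = L.det ^ 2 * ∏ i, (β i + t * r i) := by
    intro t
    have e2 : (Matrix.diagonal (fun i => β i + t * r i) : Mat n)
        = Matrix.diagonal β + t • Matrix.diagonal r := by
      ext i j
      simp only [Matrix.diagonal_apply, Matrix.add_apply, Matrix.smul_apply, smul_eq_mul]
      split_ifs <;> simp
    have e1 : B + t • (Lᵀ * Matrix.diagonal r * L)
        = Lᵀ * Matrix.diagonal (fun i => β i + t * r i) * L := by
      conv_lhs => rw [h0.hB]
      rw [e2]
      simp only [Matrix.add_mul, Matrix.mul_add, Matrix.smul_mul, Matrix.mul_smul,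
        Matrix.mul_assoc]
    rw [e1, Matrix.det_mul, Matrix.det_mul, Matrix.det_transpose, Matrix.det_diagonal]
    ring
  have hpos : ∀ᶠ t in l, ∀ i, 0 < β i + t * r i := by
    rw [eventually_all]
    intro i
    have h1 : Tendsto (fun t : ℝ => β i + t * r i) l (𝓝 (β i + 0 * r i)) := by
      refine Tendsto.mono_left ?_ hl
      apply Continuous.tendsto
      fun_prop
    refine h1.eventually (lt_mem_nhds ?_)
    simpa using hβ i
  have hJ : J1 l (fun t => Real.log (L.det ^ 2) + ∑ i, Real.log (β i + t * r i))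
      (Real.log (L.det ^ 2) + ∑ i, Real.log (β i)) (0 + ∑ i, (β i)⁻¹ * r i) := by
    refine (J1.const _).add (J1.sum Finset.univ fun i _ => ?_)
    have h3 : J1 l (fun t => β i + t * r i) (β i) (r i) := by
      refine ((J1.const (β i)).add (J1.id.mul_const (r i))).congr_coef ?_ ?_ <;> ring
    exact h3.comp hl (Real.hasDerivAt_log (hβ i).ne')
  refine hJ.congr ?_ ?_ ?_
  · filter_upwards [hpos] with t ht
    rw [e t, Real.log_mul hL (Finset.prod_ne_zero_iff.2 fun i _ => (ht i).ne'), Real.log_prod]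
    exact fun i _ => (ht i).ne'
  · rw [h0.det_B, Real.log_mul hL (Finset.prod_ne_zero_iff.2 fun i _ => (hβ i).ne'),
      Real.log_prod]
    exact fun i _ => (hβ i).ne'
  · rw [zero_add]
    exact Finset.sum_congr rfl fun i _ => by rw [div_eq_inv_mul]

end Vale.Agent.P254.Z546
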