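import Vale.Agent.P254.Z546.Contact

/-!
P254, block (Z): the entropy inequality `n + ½ log det A ≤ Ent` from the inequality (P)
(helper546).
-/

namespace Vale.Agent.P254.Z546

open Matrix Filter Topology Set
open Vale.Agent.P254.L

variable {n : ℕ}

theorem NN_diag (r : Vec n) (T : Ten n) :
    NN (Matrix.diagonal r) T T = ∑ a, r a * ∑ i, ∑ j, r i * r j * T i j a ^ 2 := by
  unfold NN N3
  have h : ∀ a b c : Fin n, ∑ a', ∑ b', ∑ c', Matrix.diagonal r a a' * Matrix.diagonal r b b'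
      * Matrix.diagonal r c c' * T a b c * T a' b' c'
      = r a * r b * r c * T a b c ^ 2 := by
    intro a b c
    have h1 : ∀ a' b', ∑ c', Matrix.diagonal r a a' * Matrix.diagonal r b b'
        * Matrix.diagonal r c c' * T a b c * T a' b' c'
        = Matrix.diagonal r a a' * Matrix.diagonal r b b' * r c * T a b c * T a' b' c := by
      intro a' b'
      rw [Finset.sum_eq_single c]
      · rw [Matrix.diagonal_apply_eq]
      · intro c' _ hc'
        rw [Matrix.diagonal_apply_ne _ (Ne.symm hc')]; ring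
      · intro hc; exact absurd (Finset.mem_univ c) hc
    have h2 : ∀ a', ∑ b', Matrix.diagonal r a a' * Matrix.diagonal r b b' * r c * T a b c
          * T a' b' c
        = Matrix.diagonal r a a' * r b * r c * T a b c * T a' b c := by
      intro a'
      rw [Finset.sum_eq_single b]
      · rw [Matrix.diagonal_apply_eq]
      · intro c' _ hc'
        rw [Matrix.diagonal_apply_ne _ (Ne.symm hc')]; ring
      · intro hc; exact absurd (Finset.mem_univ b) hc
    simp only [h1, h2]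
    rw [Finset.sum_eq_single a]
    · rw [Matrix.diagonal_apply_eq]; ring
    · intro c' _ hc'
      rw [Matrix.diagonal_apply_ne _ (Ne.symm hc')]; ring
    · intro hc; exact absurd (Finset.mem_univ a) hc
  simp only [h]
  simp only [Finset.mul_sum]
  have e : ∀ i, ∑ j, ∑ a, r i * r j * r a * T i j a ^ 2
      = ∑ a, ∑ j, r i * r j * r a * T i j a ^ 2 := fun i => Finset.sum_comm
  simp only [e]
  rw [Finset.sum_comm]
  refine Finset.sum_congr rfl fun a _ => Finset.sum_congr rfl fun i _ =>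
    Finset.sum_congr rfl fun j _ => ?_
  ring

section
variable {F : Profile} (W : WProfile F)

/-- `√c`, `c = 1/4 - x² w''/2` -/
noncomputable def rr (x : ℝ) : ℝ := Real.sqrt (1 / 4 - x ^ 2 * W.w2 x / 2)

theorem cc_pos {x : ℝ} (hx : x ∈ Ioo (0 : ℝ) 1) : 0 < 1 / 4 - x ^ 2 * W.w2 x / 2 :=
  W.cmin_pos.trans_le (W.c_ge x hx)

theorem rr_pos {x : ℝ} (hx : x ∈ Ioo (0 : ℝ) 1) : 0 < rr W x := Real.sqrt_pos.2 (cc_pos W hx)

theorem rr_sq {x : ℝ} (hx : x ∈ Ioo (0 : ℝ) 1) : rr W x ^ 2 = 1 / 4 - x ^ 2 * W.w2 x / 2 :=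
  Real.sq_sqrt (cc_pos W hx).le

theorem rr_ge {x : ℝ} (hx : x ∈ Ioo (0 : ℝ) 1) : Real.sqrt W.cmin ≤ rr W x :=
  Real.sqrt_le_sqrt (W.c_ge x hx)

theorem rr_le {x : ℝ} (hx : x ∈ Ioo (0 : ℝ) 1) :
    rr W x * Real.sqrt (1 - x) ≤ Real.sqrt W.cmax := by
  unfold rr
  rw [← Real.sqrt_mul (cc_pos W hx).le]
  exact Real.sqrt_le_sqrt (W.c_le x hx)

theorem w1_eq {x : ℝ} (hx : x ∈ Ioo (0 : ℝ) 1) : W.w1 x * (1 - x) = rr W x ^ 2 * F.p x ^ 3 := by
  rw [rr_sq W hx]; exact W.ode x hx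

theorem e1_mul {x : ℝ} (hx : x < 1) : e1 x * (1 - x) = Real.sqrt (1 - x) / 2 := by
  unfold e1
  have hs : 0 < Real.sqrt (1 - x) := Real.sqrt_pos.2 (by linarith)
  have h2 : Real.sqrt (1 - x) * Real.sqrt (1 - x) = 1 - x := Real.mul_self_sqrt (by linarith)
  nth_rewrite 2 [← h2]
  field_simp

/-- the one-term estimate -/
theorem term_neg {ε Λ x : ℝ} (hε : 0 < ε) (hΛ0 : 0 < Λ)
    (hΛ : 2 * (W.w1max * Real.sqrt W.cmax) < ε * Λ) (hx : x ∈ Ioo (0 : ℝ) 1) :
    rr W x * (W.w1 x * (1 - x)) - min (rr W x) Λ * ((W.w1 x + ε * e1 x) * (1 - x)) < 0 := by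
  have hs : 0 < Real.sqrt (1 - x) := Real.sqrt_pos.2 (by linarith [hx.2])
  have h2 : Real.sqrt (1 - x) * Real.sqrt (1 - x) = 1 - x :=
    Real.mul_self_sqrt (by linarith [hx.2])
  have hr := rr_pos W hx
  have hw := W.w1_pos x hx
  have hwm := W.w1_le x hx
  have e : (W.w1 x + ε * e1 x) * (1 - x) = W.w1 x * (1 - x) + ε * (Real.sqrt (1 - x) / 2) := by
    rw [← e1_mul hx.2]; ring
  rw [e]
  rcases le_total (rr W x) Λ with h | h
  · rw [min_eq_left h]
    have : 0 < rr W x * (ε * (Real.sqrt (1 - x) / 2)) := by positivity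
    linarith
  · rw [min_eq_right h]
    have h3 := rr_le W hx
    have h1x : 0 < 1 - x := by linarith [hx.2]
    -- rr w1 (1-x) ≤ w1max √cmax √(1-x)
    have h4 : rr W x * (W.w1 x * (1 - x)) ≤ W.w1max * Real.sqrt W.cmax * Real.sqrt (1 - x) := by
      calc rr W x * (W.w1 x * (1 - x))
          = W.w1 x * (rr W x * Real.sqrt (1 - x)) * Real.sqrt (1 - x) := by
            linear_combination (-(rr W x * W.w1 x)) * h2
        _ ≤ W.w1max * Real.sqrt W.cmax * Real.sqrt (1 - x) := by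
            refine mul_le_mul_of_nonneg_right ?_ hs.le
            exact mul_le_mul hwm h3 (by positivity) (hw.le.trans hwm)
    have h5 : 0 < Λ * (W.w1 x * (1 - x)) := by positivity
    have h6 : W.w1max * Real.sqrt W.cmax * Real.sqrt (1 - x)
        < ε * Λ / 2 * Real.sqrt (1 - x) := mul_lt_mul_of_pos_right (by linarith) hs
    nlinarith

theorem sum_neg (hn : 0 < n) {ε Λ : ℝ} (hε : 0 < ε) (hΛ0 : 0 < Λ)
    (hΛ : 2 * (W.w1max * Real.sqrt W.cmax) < ε * Λ) {β : Vec n}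
    (hβ : ∀ i, β i ∈ Ioo (0 : ℝ) 1) {T : Ten n}
    (hP : NN (Matrix.diagonal fun i => rr W (β i)) T T
      ≤ ∑ i, (F.p (β i) * rr W (β i)) ^ 3) :
    ∑ a, min (rr W (β a)) Λ * (∑ i, ∑ j, (1 / 2 * (1 / 2 - β i * β j * dd1 W.w1 W.w2 (β i) (β j)
        - ε * (β i * β j * dd1 e1 e2 (β i) (β j)))) * T i j a ^ 2
      - (W.w1 (β a) + ε * e1 (β a)) * (1 - β a)) < 0 := by
  have h1 : ∀ a, min (rr W (β a)) Λ * (∑ i, ∑ j, (1 / 2 * (1 / 2
        - β i * β j * dd1 W.w1 W.w2 (β i) (β j)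
        - ε * (β i * β j * dd1 e1 e2 (β i) (β j)))) * T i j a ^ 2)
      ≤ rr W (β a) * ∑ i, ∑ j, rr W (β i) * rr W (β j) * T i j a ^ 2 := by
    intro a
    have hm : 0 ≤ min (rr W (β a)) Λ := le_min (rr_pos W (hβ a)).le hΛ0.le
    have h2 : ∑ i, ∑ j, (1 / 2 * (1 / 2
        - β i * β j * dd1 W.w1 W.w2 (β i) (β j)
        - ε * (β i * β j * dd1 e1 e2 (β i) (β j)))) * T i j a ^ 2
        ≤ ∑ i, ∑ j, rr W (β i) * rr W (β j) * T i j a ^ 2 := by
      refine Finset.sum_le_sum fun i _ => Finset.sum_le_sum fun j _ => ?_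
      refine mul_le_mul_of_nonneg_right ?_ (sq_nonneg _)
      have h3 := W.cij _ (hβ i) _ (hβ j)
      have h4 : 0 ≤ ε * (β i * β j * dd1 e1 e2 (β i) (β j)) := by
        have := dd1_e_nonneg (hβ i).2 (hβ j).2
        have h5 := (hβ i).1
        have h6 := (hβ j).1
        positivity
      unfold rr
      linarith
    have h3 : 0 ≤ ∑ i, ∑ j, rr W (β i) * rr W (β j) * T i j a ^ 2 := by
      refine Finset.sum_nonneg fun i _ => Finset.sum_nonneg fun j _ => ?_
      have h5 := rr_pos W (hβ i)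
      have h6 := rr_pos W (hβ j)
      positivity
    exact (mul_le_mul_of_nonneg_left h2 hm).trans
      (mul_le_mul_of_nonneg_right (min_le_left _ _) h3)
  have h2 : ∑ a, rr W (β a) * ∑ i, ∑ j, rr W (β i) * rr W (β j) * T i j a ^ 2
      ≤ ∑ a, rr W (β a) * (W.w1 (β a) * (1 - β a)) := by
    rw [NN_diag] at hP
    refine hP.trans_eq (Finset.sum_congr rfl fun i _ => ?_)
    rw [w1_eq W (hβ i)]; ring
  have h3 : ∑ a, min (rr W (β a)) Λ * (∑ i, ∑ j, (1 / 2 * (1 / 2
        - β i * β j * dd1 W.w1 W.w2 (β i) (β j)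
        - ε * (β i * β j * dd1 e1 e2 (β i) (β j)))) * T i j a ^ 2
      - (W.w1 (β a) + ε * e1 (β a)) * (1 - β a))
      ≤ ∑ a, (rr W (β a) * (W.w1 (β a) * (1 - β a))
        - min (rr W (β a)) Λ * ((W.w1 (β a) + ε * e1 (β a)) * (1 - β a))) := by
    rw [Finset.sum_sub_distrib]
    have h4 := (Finset.sum_le_sum fun a (_ : a ∈ Finset.univ) => h1 a).trans h2
    have e : ∑ a, min (rr W (β a)) Λ * (∑ i, ∑ j, (1 / 2 * (1 / 2
        - β i * β j * dd1 W.w1 W.w2 (β i) (β j)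
        - ε * (β i * β j * dd1 e1 e2 (β i) (β j)))) * T i j a ^ 2
      - (W.w1 (β a) + ε * e1 (β a)) * (1 - β a))
      = ∑ a, min (rr W (β a)) Λ * (∑ i, ∑ j, (1 / 2 * (1 / 2
        - β i * β j * dd1 W.w1 W.w2 (β i) (β j)
        - ε * (β i * β j * dd1 e1 e2 (β i) (β j)))) * T i j a ^ 2)
        - ∑ a, min (rr W (β a)) Λ * ((W.w1 (β a) + ε * e1 (β a)) * (1 - β a)) := by
      rw [← Finset.sum_sub_distrib]
      exact Finset.sum_congr rfl fun a _ => by rw [mul_sub]
    rw [e]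
    linarith
  refine h3.trans_lt ?_
  have : Nonempty (Fin n) := ⟨⟨0, hn⟩⟩
  exact Finset.sum_neg (fun a _ => term_neg W hε hΛ0 hΛ (hβ a)) Finset.univ_nonempty

end

/-- **block (Z)**, for one tilt: it is enough to know `(P)` at all positive definite tilts -/
theorem ent_le {F : Profile} (W : WProfile F) {D : TiltData n} (E : EntData D)
    (hP : ∀ B : Mat n, B.PosDef → ∀ c : Vec n, PIneq F (D.A B c) B (D.T B c))
    {B : Mat n} (hB : B.PosDef) (c : Vec n) :
    (n : ℝ) + 1 / 2 * Real.log (D.A B c).det ≤ E.Ent B c := by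
  rcases Nat.eq_zero_or_pos n with hn | hn
  · subst hn
    have h := E.lowE B hB.posSemidef c
    simpa using h
  refine ent_of_GG E W hB c fun ε hε η hη => ?_
  by_contra hlt
  push Not at hlt
  set q0 : ℝ := Real.sqrt W.cmin with hq0
  have hq0p : 0 < q0 := Real.sqrt_pos.2 W.cmin_pos
  set Λ : ℝ := max q0 ((2 * (W.w1max * Real.sqrt W.cmax) + 1) / ε) with hΛ
  have hΛq : q0 ≤ Λ := le_max_left _ _
  have hΛ0 : 0 < Λ := hq0p.trans_le hΛq
  have hΛ2 : 2 * (W.w1max * Real.sqrt W.cmax) < ε * Λ := by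
    have h1 : (2 * (W.w1max * Real.sqrt W.cmax) + 1) / ε ≤ Λ := le_max_right _ _
    rw [div_le_iff₀ hε] at h1
    linarith
  obtain ⟨B', c', hB', -, hc', hf'⟩ := exists_min E W hε.le hη hq0p hΛq hB hlt
  obtain ⟨L, β, hF⟩ := exists_Fr (D.posA B' hB'.posSemidef c') hB'.isHermitian
  have hβ : ∀ i, β i ∈ Ioo (0 : ℝ) 1 := hF.beta_mem hB' c'
  set r : Vec n := fun i => min (rr W (β i)) Λ with hr
  have hr0 : ∀ i, q0 ≤ r i := fun i => le_min (rr_ge W (hβ i)) hΛq
  have hrΛ : ∀ i, r i ≤ Λ := fun i => min_le_right _ _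
  have hf'' := hf' (Lᵀ * Matrix.diagonal r * L) (by
      have e : Lᵀ * Matrix.diagonal r * L - q0 • (D.A B' c')⁻¹
          = Lᵀ * Matrix.diagonal (fun i => r i - q0) * L := by
        have e1 : (Matrix.diagonal fun i => r i - q0 : Mat n)
            = Matrix.diagonal r - q0 • (1 : Mat n) := by
          rw [Matrix.smul_one_eq_diagonal, Matrix.diagonal_sub]
        rw [e1, Matrix.mul_sub, Matrix.sub_mul, Matrix.mul_smul, Matrix.mul_one,
          Matrix.smul_mul, ← hF.inv_A]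
      rw [e, psd_conj_iff hF.isUnit, Matrix.posSemidef_diagonal_iff]
      exact fun i => sub_nonneg.2 (hr0 i)) (by
      have e : Λ • (D.A B' c')⁻¹ - Lᵀ * Matrix.diagonal r * L
          = Lᵀ * Matrix.diagonal (fun i => Λ - r i) * L := by
        have e1 : (Matrix.diagonal fun i => Λ - r i : Mat n)
            = Λ • (1 : Mat n) - Matrix.diagonal r := by
          rw [Matrix.smul_one_eq_diagonal, Matrix.diagonal_sub]
        rw [e1, Matrix.mul_sub, Matrix.sub_mul, Matrix.mul_smul, Matrix.mul_one,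
          Matrix.smul_mul, ← hF.inv_A]
      rw [e, psd_conj_iff hF.isUnit, Matrix.posSemidef_diagonal_iff]
      exact fun i => sub_nonneg.2 (hrΛ i))
  have h1 := contact_ineq E W hB' hF (r := r) (fun i => hq0p.le.trans (hr0 i)) hc' hf''
  have h2 : NN (Matrix.diagonal fun i => rr W (β i)) (frT L (D.T B' c')) (frT L (D.T B' c'))
      ≤ ∑ i, (F.p (β i) * rr W (β i)) ^ 3 := by
    have h3 := hP B' hB' c' L (fun _ => 1) β hF.isUnit
      (by rw [hF.hA]; exact Matrix.diagonal_one.symm) hF.hB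
      (Matrix.diagonal fun i => rr W (β i)) (by
        rw [Matrix.posSemidef_diagonal_iff]
        exact fun i => (rr_pos W (hβ i)).le)
    refine h3.trans_eq ?_
    rw [Matrix.diagonal_mul_diagonal, Matrix.diagonal_pow, Matrix.trace_diagonal]
    refine Finset.sum_congr rfl fun i _ => ?_
    simp
  exact absurd h1 (not_le.2 (sum_neg W hn hε hΛ0 hΛ2 hβ h2))

/-- **block (Z)** -/
theorem stZ (F : Profile) (W : WProfile F) (h : StX F) : StZ :=
  fun n D E _ hB c => ent_le W E (fun B hB c => h n D B hB c) hB c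

end Vale.Agent.P254.Z546
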